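import Vale.Agent.P217.FG.CocycleBasis

/-!
# P217: coboundaries, dual parts and chain rules for power series
-/

noncomputable section

namespace Vale.Agent.P217.FG

open MvPowerSeries Finsupp Finset

variable {R : Type*} [CommRing R]

lemma coeff_idx_left (c : MvPowerSeries (Fin 2) R) (i : ℕ) :
    coeff (idx i 0) c =
      coeff (Finsupp.single () i) (c.subst ![(MvPowerSeries.X () : MvPowerSeries Unit R), 0]) := by
  rw [coeff_subst HasSubst.X_zero, finsum_eq_single _ (idx i 0)]
  · simp [idx, X_pow_eq]
  · intro v hv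
    by_cases h1 : v 1 = 0
    · have : v 0 ≠ i := fun h => hv (by rw [eq_idx v, h, h1])
      simp [Finsupp.prod_pow, h1, X_pow_eq, coeff_monomial, Ne.symm this]
    · simp [Finsupp.prod_pow, h1]

lemma coeff_idx_symm {c : MvPowerSeries (Fin 2) R}
    (h : c.subst ![MvPowerSeries.X 1, MvPowerSeries.X 0] = c) (i j : ℕ) :
    coeff (idx i j) c = coeff (idx j i) c := by
  conv_lhs => rw [← h]
  rw [coeff_subst HasSubst.X_X, finsum_eq_single _ (idx j i)]
  · have : idx i j = Finsupp.single (1 : Fin 2) j + Finsupp.single 0 i := add_comm _ _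
    simp [Finsupp.prod_pow, X_pow_eq, monomial_mul_monomial, idx, this]
  · intro v hv
    simp only [Finsupp.prod_pow, Fin.prod_univ_two, Matrix.cons_val_zero, Matrix.cons_val_one,
      X_pow_eq, monomial_mul_monomial, one_mul, coeff_monomial]
    rw [if_neg, smul_zero]
    exact fun h => hv (by
      rw [eq_idx v]
      congr 2
      · simpa using (DFunLike.congr_fun h 1).symm
      · simpa using (DFunLike.congr_fun h 0).symm)

/-- A cocycle from its three defining identities. -/
lemma IsCocycle.of_identities {G : FormalGroup R} {c : MvPowerSeries (Fin 2) R}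
    (hs : c.subst ![MvPowerSeries.X 1, MvPowerSeries.X 0] = c)
    (h0 : c.subst ![(MvPowerSeries.X () : MvPowerSeries Unit R), 0] = 0)
    (h : c.subst ![(MvPowerSeries.X 0 : MvPowerSeries (Fin 3) R), MvPowerSeries.X 1] +
      c.subst ![G.toPowerSeries.subst
          ![(MvPowerSeries.X 0 : MvPowerSeries (Fin 3) R), MvPowerSeries.X 1], MvPowerSeries.X 2] =
      c.subst ![(MvPowerSeries.X 0 : MvPowerSeries (Fin 3) R),
          G.toPowerSeries.subst ![MvPowerSeries.X 1, MvPowerSeries.X 2]] +
        c.subst ![(MvPowerSeries.X 1 : MvPowerSeries (Fin 3) R), MvPowerSeries.X 2]) :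
    IsCocycle G c := by
  have hl : ∀ i, coeff (idx i 0) c = 0 := fun i => by rw [coeff_idx_left, h0, map_zero]
  exact ⟨hl, fun j => (coeff_idx_symm hs 0 j).trans (hl j), coeff_idx_symm hs, h⟩

lemma hasSubst_two {τ : Type*} {A B : MvPowerSeries τ R} (ha : A.constantCoeff = 0)
    (hb : B.constantCoeff = 0) : HasSubst ![A, B] :=
  hasSubst_of_constantCoeff_zero fun i => by fin_cases i <;> simpa

lemma subst_pseries_subst {τ : Type*} {a : Fin 2 → MvPowerSeries τ R} (ha : HasSubst a)
    {g : MvPowerSeries (Fin 2) R} (hg : g.constantCoeff = 0) (ψ : PowerSeries R) :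
    MvPowerSeries.subst a (PowerSeries.subst g ψ) =
      PowerSeries.subst (MvPowerSeries.subst a g) ψ := by
  rw [PowerSeries.subst,
    MvPowerSeries.subst_comp_subst_apply (PowerSeries.HasSubst.of_constantCoeff_zero hg).const ha]
  rfl

lemma subst_cobd (G : FormalGroup R) (ψ : PowerSeries R) {τ : Type*} {A B : MvPowerSeries τ R}
    (ha : A.constantCoeff = 0) (hb : B.constantCoeff = 0) :
    (cobd G ψ).subst ![A, B] = PowerSeries.subst (G.toPowerSeries.subst ![A, B]) ψ -
      PowerSeries.subst A ψ - PowerSeries.subst B ψ := by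
  have h := hasSubst_two ha hb
  rw [cobd, subst_sub h, subst_sub h, subst_pseries_subst h G.zero_constantCoeff,
    subst_pseries_subst h (by simp), subst_pseries_subst h (by simp), subst_X h, subst_X h]
  rfl

/-- Coboundaries are cocycles. -/
lemma isCocycle_cobd (G : FormalGroup R) [G.IsComm] {ψ : PowerSeries R}
    (hψ : PowerSeries.constantCoeff ψ = 0) : IsCocycle G (cobd G ψ) := by
  have hX : ∀ {σ : Type} (s : σ), (MvPowerSeries.X s : MvPowerSeries σ R).constantCoeff = 0 :=
    fun s => constantCoeff_X s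
  have hh : ∀ {σ : Type} (s : σ), PowerSeries.HasSubst (MvPowerSeries.X s : MvPowerSeries σ R) :=
    fun s => PowerSeries.HasSubst.of_constantCoeff_zero (hX s)
  refine IsCocycle.of_identities ?_ ?_ ?_
  · rw [subst_cobd G ψ (hX 1) (hX 0), ← (inferInstance : G.IsComm).comm, cobd]
    ring
  · rw [subst_cobd G ψ (hX ()) (map_zero _), G.add_zero (hh ()),
      PowerSeries.subst_zero_of_constantCoeff_zero hψ]
    ring
  · rw [subst_cobd G ψ (hX 0) (hX 1), subst_cobd G ψ (constantCoeff_fin2 G (hX 0) (hX 1)) (hX 2),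
      subst_cobd G ψ (hX 0) (constantCoeff_fin2 G (hX 1) (hX 2)), subst_cobd G ψ (hX 1) (hX 2),
      G.assoc' (hh 0) (hh 1) (hh 2)]
    ring

lemma map_two_subst {S : Type*} [CommRing S] (f : R →+* S) (c : MvPowerSeries (Fin 2) R)
    {τ : Type*} {A B : MvPowerSeries τ R} (ha : A.constantCoeff = 0) (hb : B.constantCoeff = 0) :
    MvPowerSeries.map f (c.subst ![A, B]) =
      (MvPowerSeries.map f c).subst ![MvPowerSeries.map f A, MvPowerSeries.map f B] := by
  rw [map_subst (hasSubst_two ha hb)]
  congr 1
  funext i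
  fin_cases i <;> rfl

/-- Cocycles push forward. -/
lemma IsCocycle.map {S : Type*} [CommRing S] (f : R →+* S) {G : FormalGroup R}
    {c : MvPowerSeries (Fin 2) R} (hc : IsCocycle G c) :
    IsCocycle (G.map f) (MvPowerSeries.map f c) := by
  refine ⟨fun i => by rw [coeff_map, hc.left_zero, map_zero],
    fun j => by rw [coeff_map, hc.right_zero, map_zero],
    fun i j => by rw [coeff_map, coeff_map, hc.symm], ?_⟩
  have h := congrArg (MvPowerSeries.map f) hc.cocycle
  have hX : ∀ (s : Fin 3), (MvPowerSeries.X s : MvPowerSeries (Fin 3) R).constantCoeff = 0 :=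
    fun s => constantCoeff_X s
  rw [map_add, map_add, map_two_subst f c (hX 0) (hX 1),
    map_two_subst f c (constantCoeff_fin2 G (hX 0) (hX 1)) (hX 2),
    map_two_subst f c (hX 0) (constantCoeff_fin2 G (hX 1) (hX 2)),
    map_two_subst f c (hX 1) (hX 2), map_two_subst f _ (hX 0) (hX 1),
    map_two_subst f _ (hX 1) (hX 2)] at h
  simpa only [map_X, FormalGroup.map_toPowerSeries] using h

/-- Cocycles pull back along injective maps. -/
lemma IsCocycle.of_map {S : Type*} [CommRing S] {f : R →+* S} (hf : Function.Injective f)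
    {G : FormalGroup R} {c : MvPowerSeries (Fin 2) R}
    (hc : IsCocycle (G.map f) (MvPowerSeries.map f c)) : IsCocycle G c := by
  have hX : ∀ (s : Fin 3), (MvPowerSeries.X s : MvPowerSeries (Fin 3) R).constantCoeff = 0 :=
    fun s => constantCoeff_X s
  refine ⟨fun i => hf (by rw [← coeff_map, hc.left_zero, map_zero]),
    fun j => hf (by rw [← coeff_map, hc.right_zero, map_zero]),
    fun i j => hf (by rw [← coeff_map, ← coeff_map, hc.symm]), ?_⟩
  refine MvPowerSeries.ext fun e => hf ?_
  rw [← coeff_map, ← coeff_map]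
  congr 1
  rw [map_add, map_add, map_two_subst f c (hX 0) (hX 1),
    map_two_subst f c (constantCoeff_fin2 G (hX 0) (hX 1)) (hX 2),
    map_two_subst f c (hX 0) (constantCoeff_fin2 G (hX 1) (hX 2)),
    map_two_subst f c (hX 1) (hX 2), map_two_subst f _ (hX 0) (hX 1),
    map_two_subst f _ (hX 1) (hX 2)]
  simpa only [map_X, FormalGroup.map_toPowerSeries] using hc.cocycle

lemma low_two_sub_linear (G : FormalGroup R) :
    Low 2 (G.toPowerSeries - (MvPowerSeries.X 0 + MvPowerSeries.X 1)) := by
  intro x hx
  rw [eq_idx x, degree_idx] at hx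
  rw [eq_idx x, map_sub, map_add]
  rcases Nat.eq_zero_or_pos (x 0) with h0 | h0 <;> rcases Nat.eq_zero_or_pos (x 1) with h2 | h2
  · simp [idx, h0, h2, G.zero_constantCoeff]
  · simp [idx, h0, show x 1 = 1 by omega, G.lin_coeff_Y, coeff_index_single_X]
  · simp [idx, h2, show x 0 = 1 by omega, G.lin_coeff_X, coeff_index_single_X]
  · omega

/-- The degree `m` part of `G ^ m` is that of `(X + Y) ^ m`. -/
lemma coeff_toPowerSeries_pow (G : FormalGroup R) {m : ℕ} {v : Fin 2 →₀ ℕ} (hv : v.degree = m) :
    coeff v (G.toPowerSeries ^ m) =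
      coeff v ((MvPowerSeries.X 0 + MvPowerSeries.X 1 : MvPowerSeries (Fin 2) R) ^ m) := by
  have hL : Low 1 (MvPowerSeries.X 0 + MvPowerSeries.X 1 : MvPowerSeries (Fin 2) R) :=
    low_one_of_constantCoeff (by simp)
  have h := low_pow_mul_pow_sub (low_one_of_constantCoeff G.zero_constantCoeff) hL hL hL
    (low_two_sub_linear G) (fun x _ => by simp) m 0 v (by omega)
  rwa [map_sub, sub_eq_zero, pow_zero, mul_one, mul_one] at h

lemma coeff_add_pow_mid {a m : ℕ} (h : a ≤ m) :
    coeff (idx a (m - a)) ((MvPowerSeries.X 0 + MvPowerSeries.X 1 : MvPowerSeries (Fin 2) R) ^ m) =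
      (m.choose a : R) := by
  classical
  simp only [add_pow, map_sum, X_pow_eq, monomial_mul_monomial, one_mul,
    ← map_natCast (MvPowerSeries.C (σ := Fin 2) (R := R)), ← monomial_zero_eq_C_apply,
    add_zero, coeff_monomial]
  rw [Finset.sum_eq_single a (fun x _ hx => if_neg fun h' => hx ?_)
    (fun h' => absurd (mem_range.2 (by omega)) h'), if_pos rfl]
  simpa [idx] using (DFunLike.congr_fun h' 0).symm

lemma coeff_axis {a m : ℕ} (h1 : 1 ≤ a) (h : a < m) (j : ℕ) (s : Fin 2) :
    coeff (idx a (m - a)) ((MvPowerSeries.X s : MvPowerSeries (Fin 2) R) ^ j) = 0 := by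
  classical
  rw [X_pow_eq, coeff_monomial, if_neg]
  intro h'
  have e0 := DFunLike.congr_fun h' 0
  have e1 := DFunLike.congr_fun h' 1
  fin_cases s <;> simp at e0 e1 <;> omega

/-- The middle coefficients in degree `m` of the coboundary of `x ^ m`. -/
lemma coeff_cobdPow_mid (G : FormalGroup R) {a m : ℕ} (h1 : 1 ≤ a) (h : a < m) :
    coeff (idx a (m - a)) (cobdPow G m) = (m.choose a : R) := by
  rw [cobdPow, map_sub, map_sub, coeff_toPowerSeries_pow G (by rw [degree_idx]; omega),
    coeff_add_pow_mid h.le, coeff_axis h1 h, coeff_axis h1 h, sub_zero, sub_zero]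

/-! ### First order parts -/

variable {τ : Type*} {S : Type*} [CommRing S]

/-- The `ε`-part of a series with dual number coefficients. -/
def sndPart (g : MvPowerSeries τ (DualNumber S)) : MvPowerSeries τ S :=
  fun e => TrivSqZeroExt.snd (coeff e g)

/-- The constant part of a series with dual number coefficients. -/
def fstPart (g : MvPowerSeries τ (DualNumber S)) : MvPowerSeries τ S :=
  MvPowerSeries.map (TrivSqZeroExt.fstHom S S S).toRingHom g

lemma coeff_sndPart (g : MvPowerSeries τ (DualNumber S)) (e : τ →₀ ℕ) :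
    coeff e (sndPart g) = TrivSqZeroExt.snd (coeff e g) := rfl

lemma coeff_fstPart (g : MvPowerSeries τ (DualNumber S)) (e : τ →₀ ℕ) :
    coeff e (fstPart g) = TrivSqZeroExt.fst (coeff e g) := rfl

lemma sndPart_mul (a b : MvPowerSeries τ (DualNumber S)) :
    sndPart (a * b) = fstPart a * sndPart b + sndPart a * fstPart b := by
  classical
  ext e
  rw [coeff_sndPart, coeff_mul, TrivSqZeroExt.snd_sum, map_add, coeff_mul, coeff_mul,
    ← Finset.sum_add_distrib]
  refine Finset.sum_congr rfl fun x _ => ?_
  simp [coeff_sndPart, coeff_fstPart, TrivSqZeroExt.snd_mul]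

lemma sndPart_pow (g : MvPowerSeries τ (DualNumber S)) (m : ℕ) :
    sndPart (g ^ m) = (m : MvPowerSeries τ S) * fstPart g ^ (m - 1) * sndPart g := by
  classical
  induction m with
  | zero =>
    ext e
    simp only [pow_zero, coeff_sndPart, coeff_one, Nat.cast_zero, zero_mul, map_zero]
    split_ifs <;> simp
  | succ m ih =>
    rw [pow_succ, sndPart_mul, ih, Nat.add_sub_cancel,
      show fstPart (g ^ m) = fstPart g ^ m from map_pow _ g m]
    rcases m with _ | m
    · simp
    · rw [Nat.add_sub_cancel, pow_succ (fstPart g) m]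
      push_cast
      ring

lemma coeff_mul_congr (a a' b : MvPowerSeries τ S) (e : τ →₀ ℕ)
    (h : ∀ x : τ →₀ ℕ, x.degree ≤ e.degree → coeff x a = coeff x a') :
    coeff e (a * b) = coeff e (a' * b) := by
  classical
  rw [coeff_mul, coeff_mul]
  refine Finset.sum_congr rfl fun x hx => ?_
  rw [h x.1 (by rw [← Finset.HasAntidiagonal.mem_antidiagonal.1 hx, map_add]; omega)]

lemma coeff_derivative_subst_mul {g : MvPowerSeries τ S} (hg : g.constantCoeff = 0)
    (f : PowerSeries S) (D : MvPowerSeries τ S) (e : τ →₀ ℕ) :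
    coeff e (PowerSeries.subst g (PowerSeries.derivative S f) * D) =
      ∑ m ∈ range (e.degree + 2),
        PowerSeries.coeff m f * coeff e ((m : MvPowerSeries τ S) * g ^ (m - 1) * D) := by
  classical
  rw [coeff_mul_congr _ (∑ m ∈ range (e.degree + 1),
      C (PowerSeries.coeff m (PowerSeries.derivative S f)) * g ^ m) D e fun x hx => ?_]
  · rw [Finset.sum_mul, map_sum, Finset.sum_range_succ' _ (e.degree + 1), Nat.cast_zero, zero_mul,
      zero_mul, map_zero, mul_zero, add_zero]
    refine Finset.sum_congr rfl fun m _ => ?_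
    rw [PowerSeries.coeff_derivative, Nat.add_sub_cancel,
      ← map_natCast (MvPowerSeries.C (σ := τ) (R := S)), mul_assoc (C (PowerSeries.coeff _ f * _)),
      coeff_C_mul, mul_assoc (C ((m + 1 : ℕ) : S)), coeff_C_mul]
    push_cast
    ring
  · rw [coeff_subst_range hg, map_sum]
    simp only [coeff_C_mul]
    refine Finset.sum_subset (by simp; omega) fun m _ hm => ?_
    rw [(low_one_of_constantCoeff hg).pow m x
      (by have := mt mem_range.2 hm; omega), mul_zero]

/-- The first order part of a value of a series. -/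
theorem sndPart_subst {g : MvPowerSeries τ (DualNumber S)} (hg : g.constantCoeff = 0)
    (f : PowerSeries (DualNumber S)) :
    sndPart (PowerSeries.subst g f) =
      PowerSeries.subst (fstPart g) (sndPart f : PowerSeries S) +
        PowerSeries.subst (fstPart g) (PowerSeries.derivative S (fstPart f : PowerSeries S)) *
          sndPart g := by
  classical
  have hg0 : (fstPart g).constantCoeff = 0 := by
    rw [← coeff_zero_eq_constantCoeff_apply, coeff_fstPart, coeff_zero_eq_constantCoeff_apply, hg,
      TrivSqZeroExt.fst_zero]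
  ext e
  rw [map_add, coeff_subst_range hg0, coeff_derivative_subst_mul hg0, coeff_sndPart,
    coeff_subst_range hg, TrivSqZeroExt.snd_sum, Finset.sum_range_succ _ (e.degree + 1),
    ← add_assoc, ← Finset.sum_add_distrib]
  have hlast : coeff e (((e.degree + 1 : ℕ) : MvPowerSeries τ S) *
      fstPart g ^ (e.degree + 1 - 1) * sndPart g) = 0 := by
    have hl : Low (e.degree + 1) (fstPart g ^ e.degree * sndPart g) := by
      have h1 := (low_one_of_constantCoeff hg0).pow e.degree
      rw [mul_one] at h1
      refine h1.mul (low_one_of_constantCoeff ?_)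
      rw [← coeff_zero_eq_constantCoeff_apply, coeff_sndPart, coeff_zero_eq_constantCoeff_apply,
        hg, TrivSqZeroExt.snd_zero]
    rw [Nat.add_sub_cancel, mul_assoc, ← map_natCast (MvPowerSeries.C (σ := τ) (R := S)),
      coeff_C_mul, hl e (Nat.lt_succ_self _), mul_zero]
  rw [hlast, mul_zero, add_zero]
  refine Finset.sum_congr rfl fun m _ => ?_
  rw [TrivSqZeroExt.snd_mul, ← coeff_fstPart, ← coeff_sndPart (g ^ m), sndPart_pow,
    show fstPart (g ^ m) = fstPart g ^ m from map_pow _ g m]
  simp only [smul_eq_mul, MulOpposite.smul_eq_mul_unop, MulOpposite.unop_op]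
  change TrivSqZeroExt.fst (PowerSeries.coeff m f) * _ + _ =
    TrivSqZeroExt.snd (PowerSeries.coeff m f) * _ +
      TrivSqZeroExt.fst (PowerSeries.coeff m f) * _
  ring

/-- The chain rule. -/
theorem pderiv_subst {g : MvPowerSeries τ S} (hg : g.constantCoeff = 0) (f : PowerSeries S)
    (s : τ) :
    MvPowerSeries.pderiv S s (PowerSeries.subst g f) =
      PowerSeries.subst g (PowerSeries.derivative S f) * MvPowerSeries.pderiv S s g := by
  classical
  ext e
  rw [coeff_derivative_subst_mul hg, coeff_pderiv, coeff_subst_range hg, map_add,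
    Finsupp.degree_single, Finset.sum_mul]
  refine Finset.sum_congr rfl fun m _ => ?_
  have h := congrArg (coeff e) (pderiv_pow (R := S) (i := s) g m)
  rw [coeff_pderiv] at h
  rw [mul_assoc, h]

end Vale.Agent.P217.FG
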