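import Vale.Agent.P217.Base
import Vale.Agent.P217.FG.Existence
import Vale.Agent.P217.LT.CocycleAux.Series

/-!
# P217: the special fibre, its invariant differential and the classes `∂F/∂u_i`

Specialise the logarithm to `u = 0` and to first order in one parameter, over `Frac W`.
-/

noncomputable section

namespace Vale.Agent.P217.FG

open MvPowerSeries Finsupp Finset

variable (p n : ℕ) [hp : Fact p.Prime]

/-- The fraction field of `W`. -/
abbrev FracW := FractionRing (W p n)

/-- Evaluation at `u = 0`. -/
def ev0 : E0 p n →+* FracW p n :=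
  (algebraMap (W p n) (FracW p n)).comp MvPowerSeries.constantCoeff

/-- Evaluation at `u = 0` to first order in the parameter `i`. -/
def dual (i : Fin (n - 1)) : E0 p n →+* DualNumber (FracW p n) where
  toFun a := (ev0 p n a, ev0 p n (MvPowerSeries.pderiv (W p n) i a))
  map_one' := by
    ext
    · exact map_one (ev0 p n)
    · change ev0 p n (MvPowerSeries.pderiv (W p n) i 1) = 0
      rw [MvPowerSeries.pderiv_one, map_zero]
  map_zero' := by
    ext
    · exact map_zero (ev0 p n)
    · change ev0 p n (MvPowerSeries.pderiv (W p n) i 0) = 0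
      rw [map_zero, map_zero]
  map_add' a b := by
    ext
    · exact map_add (ev0 p n) a b
    · change ev0 p n (MvPowerSeries.pderiv (W p n) i (a + b)) = _
      rw [map_add, map_add]
      rfl
  map_mul' a b := by
    ext
    · exact map_mul (ev0 p n) a b
    · change ev0 p n (MvPowerSeries.pderiv (W p n) i (a * b)) =
        ev0 p n a • ev0 p n (MvPowerSeries.pderiv (W p n) i b) +
          MulOpposite.op (ev0 p n b) • ev0 p n (MvPowerSeries.pderiv (W p n) i a)
      rw [op_smul_eq_mul, smul_eq_mul, Derivation.leibniz, smul_eq_mul, smul_eq_mul, map_add, map_mul, map_mul]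
      ring

lemma fst_dual (i : Fin (n - 1)) (a : E0 p n) :
    TrivSqZeroExt.fst (dual p n i a) = ev0 p n a := rfl

lemma snd_dual (i : Fin (n - 1)) (a : E0 p n) :
    TrivSqZeroExt.snd (dual p n i a) = ev0 p n (MvPowerSeries.pderiv (W p n) i a) := rfl

lemma algebraMap_W_injective : Function.Injective (algebraMap (W p n) (FracW p n)) :=
  IsFractionRing.injective (W p n) (FracW p n)

lemma natCast_fracW_ne_zero : (p : FracW p n) ≠ 0 := by
  rw [← map_natCast (algebraMap (W p n) (FracW p n))]
  exact fun h => WittVector.p_nonzero p (Coef p n) (algebraMap_W_injective p n (by rw [h, map_zero]))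

/-- Evaluation on `E0[1/p]`. -/
def evK : E0inv p n →+* FracW p n :=
  IsLocalization.Away.lift (p : E0 p n) (g := ev0 p n)
    (by rw [map_natCast]; exact isUnit_iff_ne_zero.2 (natCast_fracW_ne_zero p n))

/-- First order evaluation on `E0[1/p]`. -/
def dualK (i : Fin (n - 1)) : E0inv p n →+* DualNumber (FracW p n) :=
  IsLocalization.Away.lift (p : E0 p n) (g := dual p n i) (by
    rw [TrivSqZeroExt.isUnit_iff_isUnit_fst, fst_dual, map_natCast]
    exact isUnit_iff_ne_zero.2 (natCast_fracW_ne_zero p n))

lemma evK_algebraMap (a : E0 p n) : evK p n (algebraMap (E0 p n) (E0inv p n) a) = ev0 p n a :=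
  IsLocalization.Away.lift_eq _ _ a

lemma dualK_algebraMap (i : Fin (n - 1)) (a : E0 p n) :
    dualK p n i (algebraMap (E0 p n) (E0inv p n) a) = dual p n i a :=
  IsLocalization.Away.lift_eq _ _ a

lemma fst_dualK (i : Fin (n - 1)) (x : E0inv p n) :
    TrivSqZeroExt.fst (dualK p n i x) = evK p n x := by
  have : (TrivSqZeroExt.fstHom (FracW p n) (FracW p n) (FracW p n)).toRingHom.comp (dualK p n i) =
      evK p n := IsLocalization.ringHom_ext (Submonoid.powers (p : E0 p n))
    (RingHom.ext fun a => by
      change TrivSqZeroExt.fst (dualK p n i (algebraMap _ _ a)) = evK p n (algebraMap _ _ a)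
      rw [dualK_algebraMap, evK_algebraMap, fst_dual])
  exact RingHom.congr_fun this x

/-- The specialised logarithm. -/
def log0 : PowerSeries (FracW p n) := PowerSeries.map (evK p n) (haz p n).log

/-- The first order variation of the logarithm. -/
def dlog (i : Fin (n - 1)) : PowerSeries (FracW p n) :=
  sndPart (PowerSeries.map (dualK p n i) (haz p n).log)

lemma ev0_u (j : ℕ) (hj : 1 ≤ j) : ev0 p n (u p n j) = if j = n then 1 else 0 := by
  unfold ev0 u
  split_ifs with h1 h2 <;> first | omega | simp_all

lemma snd_dual_u (i : Fin (n - 1)) (j : ℕ) (hj : 1 ≤ j) :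
    ev0 p n (MvPowerSeries.pderiv (W p n) i (u p n j)) = if j = i + 1 then 1 else 0 := by
  classical
  have := i.isLt
  unfold u
  split_ifs with h1 h2 h2
  · rw [show i = ⟨j - 1, by omega⟩ from Fin.ext (by simp only; omega),
      MvPowerSeries.pderiv_X_self, map_one]
  · rw [MvPowerSeries.pderiv_X_of_ne (fun h => h2 (by
      have := congrArg Fin.val h; simp only at this; omega)), map_zero]
  all_goals first | omega | rw [MvPowerSeries.pderiv_one, map_zero] | rw [map_zero, map_zero]

lemma evK_l {t : ℕ} (ht : t ≤ n) (ht0 : 1 ≤ t) :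
    evK p n ((haz p n).l t) = if t = n then (p : FracW p n)⁻¹ else 0 := by
  obtain ⟨t, rfl⟩ : ∃ s, t = s + 1 := ⟨t - 1, by omega⟩
  have h := congrArg (evK p n) ((haz p n).l_succ t)
  rw [map_mul, map_natCast, map_sum, Finset.sum_eq_single 0 (fun s hs hs0 => ?_)
    (fun h => absurd (mem_range.2 (by omega)) h)] at h
  · rw [map_mul, map_pow, evK_algebraMap, (haz p n).l_zero, map_one, one_mul, pow_zero, pow_one,
      Nat.sub_zero, show (haz p n).u (t + 1) = u p n (t + 1) from rfl, ev0_u p n _ ht0] at h
    apply mul_left_cancel₀ (natCast_fracW_ne_zero p n)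
    rw [h]
    split_ifs
    · rw [mul_inv_cancel₀ (natCast_fracW_ne_zero p n)]
    · rw [mul_zero]
  · have := mem_range.1 hs
    rw [map_mul, map_pow, evK_algebraMap,
      show (haz p n).u (t + 1 - s) = u p n (t + 1 - s) from rfl, ev0_u p n _ (by omega),
      if_neg (by omega), zero_pow (pow_ne _), mul_zero]

lemma snd_dualK_l (i : Fin (n - 1)) {t : ℕ} (ht : t ≤ (i : ℕ) + 1) :
    TrivSqZeroExt.snd (dualK p n i ((haz p n).l t)) =
      if t = (i : ℕ) + 1 then (p : FracW p n)⁻¹ else 0 := by
  have hi := i.isLt
  cases t with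
  | zero =>
    rw [(haz p n).l_zero, map_one, TrivSqZeroExt.snd_one, if_neg (by omega)]
  | succ t =>
    have h := congrArg (fun x => TrivSqZeroExt.snd (dualK p n i x)) ((haz p n).l_succ t)
    beta_reduce at h
    rw [map_mul, map_natCast, map_sum, TrivSqZeroExt.snd_sum,
      Finset.sum_eq_single 0 (fun s hs hs0 => ?_)
        (fun h => absurd (mem_range.2 (by omega)) h)] at h
    · rw [map_mul, map_pow, dualK_algebraMap, (haz p n).l_zero, map_one, one_mul, pow_zero,
        pow_one, Nat.sub_zero, snd_dual, show (haz p n).u (t + 1) = u p n (t + 1) from rfl,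
        snd_dual_u p n i _ (by omega)] at h
      apply mul_left_cancel₀ (natCast_fracW_ne_zero p n)
      have e : TrivSqZeroExt.snd ((p : DualNumber (FracW p n)) *
          dualK p n i ((haz p n).l (t + 1))) =
          (p : FracW p n) * TrivSqZeroExt.snd (dualK p n i ((haz p n).l (t + 1))) := by
        simp [TrivSqZeroExt.snd_mul, TrivSqZeroExt.fst_natCast, TrivSqZeroExt.snd_natCast]
      rw [← e, h]
      split_ifs
      · rw [mul_inv_cancel₀ (natCast_fracW_ne_zero p n)]
      · rw [mul_zero]
    · have := mem_range.1 hs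
      have h0 : TrivSqZeroExt.fst (dualK p n i
          (algebraMap (E0 p n) (E0inv p n) ((haz p n).u (t + 1 - s)))) = 0 := by
        rw [dualK_algebraMap, fst_dual, show (haz p n).u (t + 1 - s) = u p n (t + 1 - s) from rfl,
          ev0_u p n _ (by omega), if_neg (by omega)]
      have h1 : 2 ≤ p ^ s := hp.out.two_le.trans (Nat.le_self_pow hs0 p)
      rw [map_mul, map_pow, TrivSqZeroExt.snd_mul, TrivSqZeroExt.fst_pow, h0,
        TrivSqZeroExt.snd_pow, h0]
      simp [zero_pow (pow_ne s), zero_pow (show p ^ s - 1 ≠ 0 by omega)]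

lemma coeff_log0 {m : ℕ} (h1 : 1 ≤ m) (hm : m ≤ p ^ n) :
    PowerSeries.coeff m (log0 p n) =
      if m = 1 then 1 else if m = p ^ n then (p : FracW p n)⁻¹ else 0 := by
  rw [log0, PowerSeries.coeff_map]
  by_cases h : m = p ^ Nat.log p m
  · rw [h, (haz p n).coeff_log_pow]
    rcases Nat.eq_zero_or_pos (Nat.log p m) with hl | hl
    · rw [hl, (haz p n).l_zero, map_one, if_pos (pow_zero p)]
    · have hle : Nat.log p m ≤ n :=
        (Nat.pow_le_pow_iff_right hp.out.one_lt).1 (h ▸ hm)
      rw [evK_l p n hle hl, if_neg (Nat.one_lt_pow (by omega) hp.out.one_lt).ne']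
      simp only [(Nat.pow_right_injective hp.out.two_le).eq_iff]
  · rw [Haz.log, PowerSeries.coeff_mk, if_neg h, map_zero, if_neg, if_neg]
    · exact fun e => h (by rw [e, Nat.log_pow hp.out.one_lt])
    · exact fun e => h (by simp [e])

lemma coeff_dlog (i : Fin (n - 1)) {m : ℕ} (hm : m ≤ p ^ ((i : ℕ) + 1)) :
    PowerSeries.coeff m (dlog p n i) =
      if m = p ^ ((i : ℕ) + 1) then (p : FracW p n)⁻¹ else 0 := by
  change TrivSqZeroExt.snd (dualK p n i (PowerSeries.coeff m (haz p n).log)) = _
  by_cases h : m = p ^ Nat.log p m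
  · rw [h, (haz p n).coeff_log_pow,
      snd_dualK_l p n i ((Nat.pow_le_pow_iff_right hp.out.one_lt).1 (h ▸ hm))]
    simp only [(Nat.pow_right_injective hp.out.two_le).eq_iff]
  · rw [Haz.log, PowerSeries.coeff_mk, if_neg h, map_zero, TrivSqZeroExt.snd_zero, if_neg]
    exact fun e => h (by rw [e, Nat.log_pow hp.out.one_lt])

lemma constantCoeff_dlog (i : Fin (n - 1)) : PowerSeries.constantCoeff (dlog p n i) = 0 := by
  rw [← PowerSeries.coeff_zero_eq_constantCoeff_apply, coeff_dlog p n i (Nat.zero_le _),
    if_neg (pow_ne _).symm]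

/-! ### The formal group law at `u = 0` -/

variable {p n}

/-- The integral derivative of the logarithm. -/
theorem exists_omega : ∃ ω : PowerSeries (E0 p n), PowerSeries.constantCoeff ω = 1 ∧
    PowerSeries.map (algebraMap (E0 p n) (E0inv p n)) ω =
      PowerSeries.derivative (E0inv p n) (haz p n).log := by
  have hint : ∀ m : ℕ, ∃ a : E0 p n, algebraMap (E0 p n) (E0inv p n) a =
      PowerSeries.coeff (m + 1) (haz p n).log * (m + 1) := by
    intro m
    by_cases h : m + 1 = p ^ Nat.log p (m + 1)
    · obtain ⟨a, ha⟩ := (haz p n).l_int (Nat.log p (m + 1))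
      refine ⟨a, ?_⟩
      set k := Nat.log p (m + 1)
      rw [ha, show ((m : E0inv p n) + 1) = ((m + 1 : ℕ) : E0inv p n) by push_cast; ring, h,
        (haz p n).coeff_log_pow, Nat.cast_pow]
      ring
    · exact ⟨0, by rw [Haz.log, PowerSeries.coeff_mk, if_neg h, map_zero, zero_mul]⟩
  choose a ha using hint
  refine ⟨PowerSeries.mk a, ?_, ?_⟩
  · apply FaithfulSMul.algebraMap_injective (E0 p n) (E0inv p n)
    rw [← PowerSeries.coeff_zero_eq_constantCoeff_apply, PowerSeries.coeff_mk, map_one, ha,
      (haz p n).coeff_one_log]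
    simp
  · ext m
    rw [PowerSeries.coeff_map, PowerSeries.coeff_mk, ha, PowerSeries.coeff_derivative]

variable (p n) in
/-- The invariant differential of the special fibre. -/
def omega : PowerSeries (Coef p n) :=
  PowerSeries.map (residueMap p n) (Classical.choose (exists_omega (p := p) (n := n)))

variable (p n) in
/-- The invariant differential at `u = 0`. -/
def omegaW : PowerSeries (W p n) :=
  PowerSeries.map MvPowerSeries.constantCoeff (Classical.choose (exists_omega (p := p) (n := n)))

lemma map_omegaW : PowerSeries.map (algebraMap (W p n) (FracW p n)) (omegaW p n) =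
    PowerSeries.derivative (FracW p n) (log0 p n) := by
  ext m
  have h := congrArg (fun f => evK p n (PowerSeries.coeff m f))
    (Classical.choose_spec (exists_omega (p := p) (n := n))).2
  rw [PowerSeries.coeff_map, evK_algebraMap, PowerSeries.coeff_derivative, map_mul] at h
  rw [omegaW, PowerSeries.coeff_map, PowerSeries.coeff_map, PowerSeries.coeff_derivative, log0,
    PowerSeries.coeff_map]
  simpa [ev0] using h

lemma constantCoeff_omegaW : PowerSeries.constantCoeff (omegaW p n) = 1 := by
  rw [omegaW, ← PowerSeries.coeff_zero_eq_constantCoeff_apply, PowerSeries.coeff_map,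
    PowerSeries.coeff_zero_eq_constantCoeff_apply,
    (Classical.choose_spec (exists_omega (p := p) (n := n))).1, map_one]

lemma omega_eq : omega p n = PowerSeries.map WittVector.constantCoeff (omegaW p n) := by
  ext m
  simp [omega, omegaW, residueMap]

lemma constantCoeff_omega : PowerSeries.constantCoeff (omega p n) = 1 := by
  rw [omega_eq, ← PowerSeries.coeff_zero_eq_constantCoeff_apply, PowerSeries.coeff_map,
    PowerSeries.coeff_zero_eq_constantCoeff_apply, constantCoeff_omegaW, map_one]

variable {F : FormalGroup (E0 p n)}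

/-- `F` at `u = 0`, over `W`. -/
abbrev fibreW (F : FormalGroup (E0 p n)) : FormalGroup (W p n) :=
  F.map MvPowerSeries.constantCoeff

/-- `F` at `u = 0`, over `Frac W`. -/
abbrev fibre0 (F : FormalGroup (E0 p n)) : FormalGroup (FracW p n) :=
  (fibreW F).map (algebraMap (W p n) (FracW p n))

lemma map_log_eq (hF : IsHazewinkel p n F) {A : Type} [CommRing A] (f : E0inv p n →+* A) :
    PowerSeries.subst (MvPowerSeries.map (f.comp (algebraMap (E0 p n) (E0inv p n))) F.toPowerSeries)
        (PowerSeries.map f (haz p n).log) =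
      PowerSeries.subst (MvPowerSeries.X 0 : MvPowerSeries (Fin 2) A)
          (PowerSeries.map f (haz p n).log) +
        PowerSeries.subst (MvPowerSeries.X 1 : MvPowerSeries (Fin 2) A)
          (PowerSeries.map f (haz p n).log) := by
  have h := congrArg (MvPowerSeries.map f) ((isHazewinkel_iff p n F).1 hF)
  rw [map_add, PowerSeries.map_subst (PowerSeries.HasSubst.of_constantCoeff_zero
      (F.map _).zero_constantCoeff),
    PowerSeries.map_subst (PowerSeries.HasSubst.of_constantCoeff_zero (constantCoeff_X _)),
    PowerSeries.map_subst (PowerSeries.HasSubst.of_constantCoeff_zero (constantCoeff_X _)),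
    map_X, map_X] at h
  rw [← h, MvPowerSeries.map_comp]
  rfl

lemma log0_fibre0 (hF : IsHazewinkel p n F) :
    PowerSeries.subst (fibre0 F).toPowerSeries (log0 p n) =
      PowerSeries.subst (MvPowerSeries.X 0 : MvPowerSeries (Fin 2) (FracW p n)) (log0 p n) +
        PowerSeries.subst (MvPowerSeries.X 1 : MvPowerSeries (Fin 2) (FracW p n)) (log0 p n) := by
  refine Eq.trans ?_ (map_log_eq hF (evK p n))
  congr 1
  ext e
  simp only [FormalGroup.map_toPowerSeries, coeff_map]
  exact (evK_algebraMap p n _).symm

lemma sum_log0 {τ : Type*} {g : MvPowerSeries τ (FracW p n)} (hg : g.constantCoeff = 0)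
    {e : τ →₀ ℕ} (he : e.degree ≤ p ^ n) (hn : 1 ≤ n) :
    coeff e (PowerSeries.subst g (log0 p n)) = coeff e g +
      if e.degree = p ^ n then (p : FracW p n)⁻¹ * coeff e (g ^ p ^ n) else 0 := by
  have hq : 1 < p ^ n := Nat.one_lt_pow (by omega) hp.out.one_lt
  have h0 : PowerSeries.coeff 0 (log0 p n) = 0 := by
    rw [log0, PowerSeries.coeff_map, PowerSeries.coeff_zero_eq_constantCoeff_apply,
      (haz p n).constantCoeff_log, map_zero]
  have hterm : ∀ m ∈ range (e.degree + 1), PowerSeries.coeff m (log0 p n) * coeff e (g ^ m) =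
      (if m = 1 then coeff e g else 0) +
        (if m = p ^ n then (p : FracW p n)⁻¹ * coeff e (g ^ p ^ n) else 0) := by
    intro m hm
    have := mem_range.1 hm
    rcases Nat.eq_zero_or_pos m with rfl | h1
    · rw [h0, if_neg (by omega), if_neg (by omega), zero_mul, add_zero]
    rw [coeff_log0 p n h1 (by omega)]
    split_ifs with a b b
    · omega
    · rw [a, pow_one, one_mul, add_zero]
    · rw [b, zero_add]
    · rw [zero_mul, add_zero]
  rw [coeff_subst_range hg, Finset.sum_congr rfl hterm, Finset.sum_add_distrib,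
    Finset.sum_ite_eq', Finset.sum_ite_eq']
  congr 1
  · split_ifs with h
    · rfl
    · rw [low_one_of_constantCoeff hg e (by simp at h; omega)]
  · simp only [mem_range]
    split_ifs with a b b <;> first | omega | rfl

lemma fibre0_low (hF : IsHazewinkel p n F) (hn : 1 ≤ n) :
    Low (p ^ n) ((fibre0 F).toPowerSeries - (MvPowerSeries.X 0 + MvPowerSeries.X 1)) ∧
      ∀ a, 1 ≤ a → a < p ^ n → coeff (idx a (p ^ n - a)) (fibre0 F).toPowerSeries =
        -((p : FracW p n)⁻¹ * ((p ^ n).choose a : FracW p n)) := by
  have hX : ∀ s : Fin 2, (MvPowerSeries.X s : MvPowerSeries (Fin 2) (FracW p n)).constantCoeff = 0 :=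
    fun s => constantCoeff_X s
  refine ⟨fun e he => ?_, fun a h1 h2 => ?_⟩
  · have h := congrArg (coeff e) (log0_fibre0 hF)
    rw [map_add, sum_log0 (fibre0 F).zero_constantCoeff he.le hn, sum_log0 (hX 0) he.le hn,
      sum_log0 (hX 1) he.le hn, if_neg he.ne, if_neg he.ne, if_neg he.ne] at h
    simp only [add_zero] at h
    rw [map_sub, map_add, h, sub_self]
  · have hd : (idx a (p ^ n - a)).degree = p ^ n := by rw [degree_idx]; omega
    have h := congrArg (coeff (idx a (p ^ n - a))) (log0_fibre0 hF)
    rw [map_add, sum_log0 (fibre0 F).zero_constantCoeff hd.le hn, sum_log0 (hX 0) hd.le hn,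
      sum_log0 (hX 1) hd.le hn, if_pos hd, if_pos hd, if_pos hd,
      coeff_toPowerSeries_pow _ hd, coeff_add_pow_mid h2.le, coeff_axis h1 h2, coeff_axis h1 h2,
      ← pow_one (MvPowerSeries.X 0), ← pow_one (MvPowerSeries.X 1), coeff_axis h1 h2,
      coeff_axis h1 h2] at h
    linear_combination h

lemma natCast_inv_mul {q : ℕ} (h : p ∣ q) :
    (p : FracW p n)⁻¹ * (q : FracW p n) = ((q / p : ℕ) : FracW p n) := by
  obtain ⟨c, rfl⟩ := h
  rw [Nat.mul_div_cancel_left _ hp.out.pos, Nat.cast_mul, ← mul_assoc,
    inv_mul_cancel₀ (natCast_fracW_ne_zero p n), one_mul]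

lemma pivot_lt {v : ℕ} (hv : 1 ≤ v) :
    1 ≤ p ^ pivot p (p ^ v) ∧ p ^ pivot p (p ^ v) < p ^ v := by
  rw [pivot_pow]
  exact ⟨Nat.one_le_pow _ _ hp.out.pos, Nat.pow_lt_pow_right hp.out.one_lt (by omega)⟩

lemma coeff_specialFibre (F : FormalGroup (E0 p n)) (e : Fin 2 →₀ ℕ) :
    coeff e (specialFibre p n F).toPowerSeries =
      WittVector.constantCoeff (coeff e (fibreW F).toPowerSeries) := by
  simp [specialFibre, residueMap]

/-- The special fibre is `X + Y` below degree `p ^ n`, with nonzero pivot in degree `p ^ n`. -/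
theorem specialFibre_low (hF : IsHazewinkel p n F) (hn : 1 ≤ n) :
    Low (p ^ n) ((specialFibre p n F).toPowerSeries - (MvPowerSeries.X 0 + MvPowerSeries.X 1)) ∧
      coeff (pidx p (p ^ n)) (specialFibre p n F).toPowerSeries ≠ 0 := by
  obtain ⟨h1, h2⟩ := fibre0_low hF hn
  obtain ⟨hp1, hp2⟩ := pivot_lt (p := p) hn
  refine ⟨fun e he => ?_, ?_⟩
  · have h := h1 e he
    rw [map_sub, FormalGroup.map_toPowerSeries, coeff_map, map_add] at h
    have hinj : coeff e (fibreW F).toPowerSeries =
        coeff e (MvPowerSeries.X 0 + MvPowerSeries.X 1 : MvPowerSeries (Fin 2) (W p n)) := by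
      apply algebraMap_W_injective p n
      rw [sub_eq_zero] at h
      rw [h, ← coeff_map, map_add, map_X, map_X, map_add]
    rw [map_sub, coeff_specialFibre, hinj, ← coeff_map, map_add, map_X, map_X, sub_self]
  · have hinj : coeff (pidx p (p ^ n)) (fibreW F).toPowerSeries =
        -((cdCoeff p (p ^ n) (p ^ pivot p (p ^ n)) : ℕ) : W p n) := by
      apply algebraMap_W_injective p n
      have h := h2 _ hp1 hp2
      rw [FormalGroup.map_toPowerSeries, coeff_map,
        natCast_inv_mul (hp.out.dvd_choose_pow (by omega) hp2.ne)] at h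
      rw [map_neg, map_natCast, cdCoeff, padicValNat.prime_pow, if_pos rfl, h]
    rw [coeff_specialFibre, hinj, map_neg, map_natCast, neg_ne_zero]
    exact (cdCoeff_pivot_ne_zero (p := p) (k := Coef p n)
      (hp.out.two_le.trans (Nat.le_self_pow (by omega) p))).1

/-- The invariant differential transforms correctly. -/
theorem omega_mul_pderiv (hF : IsHazewinkel p n F) (s : Fin 2) :
    PowerSeries.subst (specialFibre p n F).toPowerSeries (omega p n) *
        MvPowerSeries.pderiv (Coef p n) s (specialFibre p n F).toPowerSeries =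
      PowerSeries.subst (MvPowerSeries.X s : MvPowerSeries (Fin 2) (Coef p n)) (omega p n) := by
  classical
  have hX : ∀ {A : Type} [CommRing A] (s : Fin 2),
      (MvPowerSeries.X s : MvPowerSeries (Fin 2) A).constantCoeff = 0 := fun s => constantCoeff_X s
  have h := congrArg (MvPowerSeries.pderiv (FracW p n) s) (log0_fibre0 hF)
  rw [map_add, pderiv_subst (fibre0 F).zero_constantCoeff, pderiv_subst (hX 0),
    pderiv_subst (hX 1)] at h
  have hrhs : PowerSeries.subst (MvPowerSeries.X 0) (PowerSeries.derivative (FracW p n) (log0 p n)) *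
        MvPowerSeries.pderiv (FracW p n) s (MvPowerSeries.X 0) +
      PowerSeries.subst (MvPowerSeries.X 1) (PowerSeries.derivative (FracW p n) (log0 p n)) *
        MvPowerSeries.pderiv (FracW p n) s (MvPowerSeries.X 1) =
      PowerSeries.subst (MvPowerSeries.X s : MvPowerSeries (Fin 2) (FracW p n))
        (PowerSeries.derivative (FracW p n) (log0 p n)) := by
    fin_cases s <;> simp
  rw [hrhs, ← map_omegaW] at h
  have hd : ∀ {A B : Type} [CommRing A] [CommRing B] (f : A →+* B) (g : MvPowerSeries (Fin 2) A),
      MvPowerSeries.map f (MvPowerSeries.pderiv A s g) =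
        MvPowerSeries.pderiv B s (MvPowerSeries.map f g) := fun f g => by
    ext e
    simp [MvPowerSeries.coeff_pderiv]
  have hW : PowerSeries.subst (fibreW F).toPowerSeries (omegaW p n) *
      MvPowerSeries.pderiv (W p n) s (fibreW F).toPowerSeries =
      PowerSeries.subst (MvPowerSeries.X s : MvPowerSeries (Fin 2) (W p n)) (omegaW p n) := by
    refine MvPowerSeries.ext fun e => algebraMap_W_injective p n ?_
    rw [← coeff_map, ← coeff_map, map_mul,
      PowerSeries.map_subst (PowerSeries.HasSubst.of_constantCoeff_zero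
        (fibreW F).zero_constantCoeff),
      PowerSeries.map_subst (PowerSeries.HasSubst.of_constantCoeff_zero (hX s)), map_X, hd]
    exact congrArg (coeff e) h
  have h2 := congrArg (MvPowerSeries.map WittVector.constantCoeff) hW
  rw [map_mul, PowerSeries.map_subst (PowerSeries.HasSubst.of_constantCoeff_zero
        (fibreW F).zero_constantCoeff),
    PowerSeries.map_subst (PowerSeries.HasSubst.of_constantCoeff_zero (hX s)), map_X, hd,
    ← omega_eq] at h2
  rw [show (specialFibre p n F).toPowerSeries =
    MvPowerSeries.map WittVector.constantCoeff (fibreW F).toPowerSeries from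
      MvPowerSeries.ext fun e => by rw [coeff_specialFibre, coeff_map]]
  exact h2

/-- The normalised class of `∂F/∂u_i`. -/
def classCocycle (F : FormalGroup (E0 p n)) (i : Fin (n - 1)) :
    MvPowerSeries (Fin 2) (Coef p n) :=
  PowerSeries.subst (specialFibre p n F).toPowerSeries (omega p n) * dF p n F i

theorem classCocycle_spec (hF : IsHazewinkel p n F) [F.IsComm] (i : Fin (n - 1)) :
    IsCocycle (specialFibre p n F) (classCocycle F i) ∧
      Low (p ^ ((i : ℕ) + 1)) (classCocycle F i) ∧
      coeff (pidx p (p ^ ((i : ℕ) + 1))) (classCocycle F i) ≠ 0 := by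
  classical
  have hi := i.isLt
  set q := p ^ ((i : ℕ) + 1) with hq
  let DW : MvPowerSeries (Fin 2) (W p n) := fun e =>
    MvPowerSeries.constantCoeff (MvPowerSeries.pderiv (W p n) i (coeff e F.toPowerSeries))
  set cW := PowerSeries.subst (fibreW F).toPowerSeries (omegaW p n) * DW with hcW
  have hcomm : (fibre0 F).IsComm := by
    refine ⟨?_⟩
    have h : F.toPowerSeries = F.toPowerSeries.subst ![MvPowerSeries.X 1, MvPowerSeries.X 0] :=
      FormalGroup.IsComm.comm
    have h' := congrArg (MvPowerSeries.map (ev0 p n)) h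
    rw [map_two_subst _ _ (constantCoeff_X _) (constantCoeff_X _), map_X, map_X] at h'
    have e : MvPowerSeries.map (ev0 p n) F.toPowerSeries = (fibre0 F).toPowerSeries := by
      ext x; simp [ev0]
    rw [e] at h'
    exact h'
  have hmap : PowerSeries.subst (fibre0 F).toPowerSeries (dlog p n i) +
      PowerSeries.subst (fibre0 F).toPowerSeries
          (PowerSeries.derivative (FracW p n) (log0 p n)) *
        MvPowerSeries.map (algebraMap (W p n) (FracW p n)) DW =
      PowerSeries.subst (MvPowerSeries.X 0) (dlog p n i) +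
        PowerSeries.subst (MvPowerSeries.X 1) (dlog p n i) := by
    have h := congrArg sndPart (map_log_eq hF (dualK p n i))
    set g := MvPowerSeries.map ((dualK p n i).comp (algebraMap (E0 p n) (E0inv p n)))
      F.toPowerSeries with hg
    have hg0 : g.constantCoeff = 0 := by
      rw [hg, constantCoeff_map, F.zero_constantCoeff, map_zero]
    have hadd : ∀ a b : MvPowerSeries (Fin 2) (DualNumber (FracW p n)),
        sndPart (a + b) = sndPart a + sndPart b := fun a b => by
      ext e; simp [coeff_sndPart]
    have hfst : fstPart g = (fibre0 F).toPowerSeries := by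
      ext e
      rw [coeff_fstPart, hg, coeff_map, RingHom.comp_apply, dualK_algebraMap, fst_dual]
      simp [ev0]
    have hsnd : sndPart g = MvPowerSeries.map (algebraMap (W p n) (FracW p n)) DW := by
      ext e
      rw [coeff_sndPart, hg, coeff_map, RingHom.comp_apply, dualK_algebraMap, snd_dual, coeff_map]
      rfl
    have hlog : (fstPart (PowerSeries.map (dualK p n i) (haz p n).log) :
        PowerSeries (FracW p n)) = log0 p n := by
      ext m
      exact fst_dualK p n i _
    have hfX : ∀ s : Fin 2, fstPart (MvPowerSeries.X s :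
        MvPowerSeries (Fin 2) (DualNumber (FracW p n))) = MvPowerSeries.X s := fun s =>
      map_X _ s
    have hsX : ∀ s : Fin 2, sndPart (MvPowerSeries.X s :
        MvPowerSeries (Fin 2) (DualNumber (FracW p n))) = 0 := fun s => by
      ext e
      rw [coeff_sndPart, coeff_X]
      split_ifs <;> simp
    rw [hadd, sndPart_subst hg0, sndPart_subst (constantCoeff_X _),
      sndPart_subst (constantCoeff_X _), hfst, hsnd, hlog, hfX, hfX, hsX, hsX, mul_zero, mul_zero,
      add_zero, add_zero] at h
    exact h
  have hc0 : MvPowerSeries.map (algebraMap (W p n) (FracW p n)) cW =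
      cobd (fibre0 F) (-dlog p n i) := by
    have hneg : ∀ {g : MvPowerSeries (Fin 2) (FracW p n)}, g.constantCoeff = 0 →
        PowerSeries.subst g (-dlog p n i) = -PowerSeries.subst g (dlog p n i) := fun {g} hg => by
      rw [← PowerSeries.coe_substAlgHom (PowerSeries.HasSubst.of_constantCoeff_zero hg), map_neg]
    rw [hcW, map_mul, PowerSeries.map_subst (PowerSeries.HasSubst.of_constantCoeff_zero
      (fibreW F).zero_constantCoeff), cobd, hneg (fibre0 F).zero_constantCoeff,
      hneg (constantCoeff_X _), hneg (constantCoeff_X _)]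
    have e : PowerSeries.subst (MvPowerSeries.map (algebraMap (W p n) (FracW p n))
        (fibreW F).toPowerSeries)
        (PowerSeries.map (algebraMap (W p n) (FracW p n)) (omegaW p n)) =
        PowerSeries.subst (fibre0 F).toPowerSeries
          (PowerSeries.derivative (FracW p n) (log0 p n)) := by rw [map_omegaW]; rfl
    rw [e]
    linear_combination hmap
  have hconst : PowerSeries.constantCoeff (-dlog p n i) = 0 := by
    rw [map_neg, constantCoeff_dlog, neg_zero]
  have hW : IsCocycle (fibreW F) cW :=
    IsCocycle.of_map (algebraMap_W_injective p n) (by rw [hc0]; exact isCocycle_cobd _ hconst)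
  have hres : classCocycle F i = MvPowerSeries.map WittVector.constantCoeff cW := by
    rw [hcW, map_mul, PowerSeries.map_subst (PowerSeries.HasSubst.of_constantCoeff_zero
      (fibreW F).zero_constantCoeff), ← omega_eq, classCocycle]
    congr 2
  have hfib : specialFibre p n F = (fibreW F).map WittVector.constantCoeff :=
    FormalGroup.ext (MvPowerSeries.ext fun e =>
      (coeff_specialFibre F e).trans (coeff_map _ _ _).symm)
  have hcoef : ∀ e : Fin 2 →₀ ℕ, e.degree ≤ q →
      algebraMap (W p n) (FracW p n) (coeff e cW) =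
        if e.degree = q then -((p : FracW p n)⁻¹ * coeff e (cobdPow (fibre0 F) q)) else 0 := by
    intro e he
    rw [← coeff_map, hc0, coeff_cobd]
    rw [Finset.sum_congr rfl fun m hm => by
      rw [map_neg, coeff_dlog p n i (by have := mem_range.1 hm; omega : m ≤ p ^ ((i : ℕ) + 1)),
        ← hq, apply_ite (fun x : FracW p n => -x), neg_zero, ite_mul, zero_mul, neg_mul]]
    rw [Finset.sum_ite_eq']
    simp only [mem_range]
    split_ifs with a b b <;> first | omega | rfl
  obtain ⟨hp1, hp2⟩ := pivot_lt (p := p) (show 1 ≤ (i : ℕ) + 1 by omega)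
  rw [← hq] at hp1 hp2
  refine ⟨?_, fun e he => ?_, ?_⟩
  · rw [hres, hfib]
    exact hW.map _
  · have h := hcoef e he.le
    rw [if_neg he.ne] at h
    rw [hres, coeff_map, show coeff e cW = 0 from algebraMap_W_injective p n (by rw [h, map_zero]),
      map_zero]
  · have hd : (pidx p q).degree = q := by rw [degree_idx]; omega
    have h := hcoef _ hd.le
    rw [if_pos hd, coeff_cobdPow_mid _ hp1 hp2,
      natCast_inv_mul (hp.out.dvd_choose_pow (by omega) hp2.ne)] at h
    have hinj : coeff (pidx p q) cW = -((cdCoeff p q (p ^ pivot p q) : ℕ) : W p n) := by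
      apply algebraMap_W_injective p n
      rw [h, map_neg, map_natCast, cdCoeff, hq, padicValNat.prime_pow, if_pos rfl]
    rw [hres, coeff_map, hinj, map_neg, map_natCast, neg_ne_zero]
    exact (cdCoeff_pivot_ne_zero (p := p) (k := Coef p n)
      (hp.out.two_le.trans (Nat.le_self_pow (by omega) p))).1

end Vale.Agent.P217.FG
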